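import Vale.Agent.P237.Quant.TailData.N92.tailN92N0Part0
import Vale.Agent.P237.Quant.TailData.N92.tailN92N0Part1
import Vale.Agent.P237.Quant.TailData.N92.tailN92N0Part2
import Vale.Agent.P237.Quant.TailData.N92.tailN92N0Part3
import Vale.Agent.P237.Quant.TailData.N92.tailN92N0Part4
import Vale.Agent.P237.Quant.TailData.N92.tailN92N0Part5
import Vale.Agent.P237.Quant.TailData.N92.tailN92N0Part6
import Vale.Agent.P237.Quant.TailData.N92.tailN92N0Part7

/-!
Tail calibration tailN92N0 in dimension 92. The check. Generated data, checked by the kernel.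
-/

set_option maxRecDepth 100000
set_option linter.all false

namespace Vale.Agent.P237.Quant.TailData

open TailCert


/-- The calibration. -/
noncomputable def tailN92N0 : Cfg :=
  tailN92N0Base.withIvals (List.flatten [tailN92N0L0, tailN92N0L1, tailN92N0L2, tailN92N0L3, tailN92N0L4, tailN92N0L5, tailN92N0L6, tailN92N0L7, tailN92N0L8, tailN92N0L9, tailN92N0L10, tailN92N0L11, tailN92N0L12, tailN92N0L13, tailN92N0L14, tailN92N0L15, tailN92N0L16, tailN92N0L17, tailN92N0L18, tailN92N0L19, tailN92N0L20, tailN92N0L21, tailN92N0L22, tailN92N0L23, tailN92N0L24, tailN92N0L25, tailN92N0L26, tailN92N0L27, tailN92N0L28, tailN92N0L29, tailN92N0L30, tailN92N0L31])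

theorem tailN92N0_parts : [tailN92N0L0, tailN92N0L1, tailN92N0L2, tailN92N0L3, tailN92N0L4, tailN92N0L5, tailN92N0L6, tailN92N0L7, tailN92N0L8, tailN92N0L9, tailN92N0L10, tailN92N0L11, tailN92N0L12, tailN92N0L13, tailN92N0L14, tailN92N0L15, tailN92N0L16, tailN92N0L17, tailN92N0L18, tailN92N0L19, tailN92N0L20, tailN92N0L21, tailN92N0L22, tailN92N0L23, tailN92N0L24, tailN92N0L25, tailN92N0L26, tailN92N0L27, tailN92N0L28, tailN92N0L29, tailN92N0L30, tailN92N0L31].Forall fun l => tailN92N0Base.partUsed tailN92N0Used l = true := by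
  simp only [List.forall_cons, List.Forall]
  exact ⟨tailN92N0L0_ok, tailN92N0L1_ok, tailN92N0L2_ok, tailN92N0L3_ok, tailN92N0L4_ok, tailN92N0L5_ok, tailN92N0L6_ok, tailN92N0L7_ok, tailN92N0L8_ok, tailN92N0L9_ok, tailN92N0L10_ok, tailN92N0L11_ok, tailN92N0L12_ok, tailN92N0L13_ok, tailN92N0L14_ok, tailN92N0L15_ok, tailN92N0L16_ok, tailN92N0L17_ok, tailN92N0L18_ok, tailN92N0L19_ok, tailN92N0L20_ok, tailN92N0L21_ok, tailN92N0L22_ok, tailN92N0L23_ok, tailN92N0L24_ok, tailN92N0L25_ok, tailN92N0L26_ok, tailN92N0L27_ok, tailN92N0L28_ok, tailN92N0L29_ok, tailN92N0L30_ok, tailN92N0L31_ok⟩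

theorem tailN92N0_check : tailN92N0.check = true :=
  Cfg.check_of_parts (by decide +kernel) tailN92N0_parts

end Vale.Agent.P237.Quant.TailData
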