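import Vale.Agent.P237.Quant.TailData.N92.tailN92P3Part0
import Vale.Agent.P237.Quant.TailData.N92.tailN92P3Part1
import Vale.Agent.P237.Quant.TailData.N92.tailN92P3Part2
import Vale.Agent.P237.Quant.TailData.N92.tailN92P3Part3
import Vale.Agent.P237.Quant.TailData.N92.tailN92P3Part4
import Vale.Agent.P237.Quant.TailData.N92.tailN92P3Part5
import Vale.Agent.P237.Quant.TailData.N92.tailN92P3Part6
import Vale.Agent.P237.Quant.TailData.N92.tailN92P3Part7

/-!
Tail calibration tailN92P3 in dimension 92. The check. Generated data, checked by the kernel.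
-/

set_option maxRecDepth 100000
set_option linter.all false

namespace Vale.Agent.P237.Quant.TailData

open TailCert


/-- The calibration. -/
noncomputable def tailN92P3 : Cfg :=
  tailN92P3Base.withIvals (List.flatten [tailN92P3L0, tailN92P3L1, tailN92P3L2, tailN92P3L3, tailN92P3L4, tailN92P3L5, tailN92P3L6, tailN92P3L7, tailN92P3L8, tailN92P3L9, tailN92P3L10, tailN92P3L11, tailN92P3L12, tailN92P3L13, tailN92P3L14, tailN92P3L15, tailN92P3L16, tailN92P3L17, tailN92P3L18, tailN92P3L19, tailN92P3L20, tailN92P3L21, tailN92P3L22, tailN92P3L23, tailN92P3L24, tailN92P3L25, tailN92P3L26, tailN92P3L27, tailN92P3L28, tailN92P3L29])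

theorem tailN92P3_parts : [tailN92P3L0, tailN92P3L1, tailN92P3L2, tailN92P3L3, tailN92P3L4, tailN92P3L5, tailN92P3L6, tailN92P3L7, tailN92P3L8, tailN92P3L9, tailN92P3L10, tailN92P3L11, tailN92P3L12, tailN92P3L13, tailN92P3L14, tailN92P3L15, tailN92P3L16, tailN92P3L17, tailN92P3L18, tailN92P3L19, tailN92P3L20, tailN92P3L21, tailN92P3L22, tailN92P3L23, tailN92P3L24, tailN92P3L25, tailN92P3L26, tailN92P3L27, tailN92P3L28, tailN92P3L29].Forall fun l => tailN92P3Base.partUsed tailN92P3Used l = true := by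
  simp only [List.forall_cons, List.Forall]
  exact ⟨tailN92P3L0_ok, tailN92P3L1_ok, tailN92P3L2_ok, tailN92P3L3_ok, tailN92P3L4_ok, tailN92P3L5_ok, tailN92P3L6_ok, tailN92P3L7_ok, tailN92P3L8_ok, tailN92P3L9_ok, tailN92P3L10_ok, tailN92P3L11_ok, tailN92P3L12_ok, tailN92P3L13_ok, tailN92P3L14_ok, tailN92P3L15_ok, tailN92P3L16_ok, tailN92P3L17_ok, tailN92P3L18_ok, tailN92P3L19_ok, tailN92P3L20_ok, tailN92P3L21_ok, tailN92P3L22_ok, tailN92P3L23_ok, tailN92P3L24_ok, tailN92P3L25_ok, tailN92P3L26_ok, tailN92P3L27_ok, tailN92P3L28_ok, tailN92P3L29_ok⟩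

theorem tailN92P3_check : tailN92P3.check = true :=
  Cfg.check_of_parts (by decide +kernel) tailN92P3_parts

end Vale.Agent.P237.Quant.TailData
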