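import Vale.Agent.P237.Quant.TailPartsLink
import Vale.Agent.P237.Quant.RowTables
import Vale.Agent.P237.Quant.EnvelopeTableData.N86
import Vale.Agent.P237.Quant.TailData.N92.tailN92P0
import Vale.Agent.P237.Quant.TailData.N92.tailN92P1
import Vale.Agent.P237.Quant.TailData.N92.tailN92P2
import Vale.Agent.P237.Quant.TailData.N92.tailN92P3
import Vale.Agent.P237.Quant.TailData.N92.tailN92N0
import Vale.Agent.P237.Quant.TailData.N92.tailN92N1

/-!
The tail inequalities of the rows of both sides in dimension 92. Generated.
-/

namespace Vale.Agent.P237.Quant

open TailCert TailData

/-- The tail inequalities of `negRow14` in dimension 92. -/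
theorem negRow14_tailAt92 : negRow14.TailAt 91 := by
  intro P hP
  simp only [negRow14, binsOf, List.mem_cons, List.not_mem_nil, or_false] at hP
  rcases hP with rfl | rfl
  · exact tailBin_negParts tailN92N0_check tailN92N0_parts envTable92_check (by decide +kernel)
  · exact tailBin_negParts tailN92N1_check tailN92N1_parts envTable92_check (by decide +kernel)

/-- The tail inequalities of `posRow55` in dimension 92. -/
theorem posRow55_tailAt92 : posRow55.TailAt 91 := by
  intro P hP
  simp only [posRow55, posRowB, posCuts14, posCuts16, binsOf, List.mem_cons, List.not_mem_nil, or_false] at hP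
  rcases hP with rfl | rfl | rfl | rfl
  · exact tailBin_posParts tailN92P0_check tailN92P0_parts envTable92_check (by decide +kernel)
  · exact tailBin_posParts tailN92P1_check tailN92P1_parts envTable92_check (by decide +kernel)
  · exact tailBin_posParts tailN92P2_check tailN92P2_parts envTable92_check (by decide +kernel)
  · exact tailBin_posParts tailN92P3_check tailN92P3_parts envTable92_check (by decide +kernel)

end Vale.Agent.P237.Quant
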